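import Vale.Agent.P230.Main

/-!
P230 (Q1): the translative covering density is of order at least `n log n` in the worst case.
-/

namespace Vale.Agent.Results.P230.NLogN

open Vale.Agent.P230

theorem result : LowerBound ∧ NotLinear ∧ LatticeLowerBound :=
  ⟨lowerBound, notLinear, latticeLowerBound⟩

end Vale.Agent.Results.P230.NLogN
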